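import Crest.Agent.X212.Line51.Lit
import Crest.Agent.X212.Line51.Cm
import Crest.Agent.X212.M.Rel

-- ▼ part X212/Line51/Ms
section

/-!
# X212 / Line51, part Ms (helper51): general position for lines

* `dimH_image_le_mf` : smooth images of manifolds have small Hausdorff dimension;
* `exists_small` : a line on a manifold of dimension `< 2 |κ|` is isometric to a line in `ℂ^κ`.
-/

set_option autoImplicit false
set_option linter.unusedSectionVars false

open Set Filter Topology Function Matrix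
open scoped ContDiff Manifold ComplexOrder
open Crest.Agent.R208 Crest.Agent.R208.F Crest.Agent.R208.FI Crest.Agent.X212.Dr59
  Crest.Agent.X212.Pj41

noncomputable section

namespace Crest.Agent.X212.Line51

variable {E : Type*} [NormedAddCommGroup E] [NormedSpace ℝ E] [FiniteDimensional ℝ E]
  {H : Type*} [TopologicalSpace H] {I : ModelWithCorners ℝ E H} [I.Boundaryless]
  {M : Type*} [TopologicalSpace M] [ChartedSpace H M] [IsManifold I ∞ M]
  [SecondCountableTopology M] {ι κ : Type*} [Fintype ι] [Fintype κ]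

theorem dimH_image_le_mf {F : Type*} [NormedAddCommGroup F] [NormedSpace ℝ F] {f : M → F}
    {U : Set M} (hf : ∀ x ∈ U, ContMDiffAt I 𝓘(ℝ, F) ∞ f x) :
    dimH (f '' U) ≤ Module.finrank ℝ E := by
  have : ProperSpace E := FiniteDimensional.proper ℝ E
  obtain ⟨s, -, h2, h3⟩ := TopologicalSpace.countable_cover_nhdsWithin (s := U)
    (f := fun x => U ∩ (extChartAt I x).source)
    fun x _ => inter_mem_nhdsWithin U (extChartAt_source_mem_nhds x)
  refine (dimH_mono (image_mono h3)).trans ?_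
  rw [image_iUnion₂, dimH_bUnion h2]
  refine iSup₂_le fun x _ => ?_
  have e : f '' (U ∩ (extChartAt I x).source) =
      (f ∘ (extChartAt I x).symm) '' (extChartAt I x '' (U ∩ (extChartAt I x).source)) := by
    rw [image_image]
    exact image_congr fun y hy => by rw [Function.comp_apply, (extChartAt I x).left_inv hy.2]
  rw [e]
  refine (dimH_image_le_of_locally_lipschitzOn ?_).trans
    ((dimH_mono (subset_univ _)).trans (Real.dimH_univ_eq_finrank E).le)
  rintro _ ⟨y, hy, rfl⟩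
  have hm := (extChartAt I x).map_source hy.2
  have k : ContMDiffAt 𝓘(ℝ, E) 𝓘(ℝ, F) ∞ (f ∘ (extChartAt I x).symm) (extChartAt I x y) :=
    ContMDiffAt.comp _ (by rw [(extChartAt I x).left_inv hy.2]; exact hf y hy.1)
      ((contMDiffOn_extChartAt_symm x).contMDiffAt ((isOpen_extChartAt_target x).mem_nhds hm))
  obtain ⟨K, t, ht, hK⟩ := (k.contDiffAt.of_le (by simp) : ContDiffAt ℝ 1 _ _).exists_lipschitzOnWith
  exact ⟨K, t, mem_nhdsWithin_of_mem_nhds ht, hK⟩

/-- a generic linear map does not kill any line of the family -/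
theorem exists_gen {p : M → Matrix ι ι ℂ} (sp : ∀ x, MSm I p x) (hp : ∀ x, (p x).trace = 1)
    (hd : Module.finrank ℝ E < 2 * Fintype.card κ) : ∃ B : Matrix κ ι ℂ, ∀ x, B * p x ≠ 0 := by
  classical
  let g : ∀ i : ι, M × (κ → {j // j ≠ i} → ℂ) → κ → ι → ℂ := fun i z a j =>
    if h : j = i then -((p z.1 i i)⁻¹ * ∑ k, z.2 a k * p z.1 k i) else z.2 a ⟨j, h⟩
  have h1 : ∀ i, dimH (g i '' {z | p z.1 i i ≠ 0}) < Module.finrank ℝ (κ → ι → ℂ) := fun i => by
    refine (dimH_image_le_mf (I := I.prod 𝓘(ℝ, κ → {j // j ≠ i} → ℂ)) fun z hz => ?_).trans_lt ?_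
    · have c : ∀ a k, FSm (I.prod 𝓘(ℝ, κ → {j // j ≠ i} → ℂ))
          (fun z : M × (κ → {j // j ≠ i} → ℂ) => z.2 a k) z := fun a k =>
        (contDiff_apply_apply ℝ ℂ a k).contDiffAt.comp_contMDiffAt contMDiffAt_snd
      have q : ∀ a b, FSm (I.prod 𝓘(ℝ, κ → {j // j ≠ i} → ℂ))
          (fun z : M × (κ → {j // j ≠ i} → ℂ) => p z.1 a b) z := fun a b =>
        (sp _ a b).comp z contMDiffAt_fst
      refine contMDiffAt_pi_space.2 fun a => contMDiffAt_pi_space.2 fun j => ?_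
      by_cases h : j = i
      · simp only [g, dif_pos h]
        exact (((q i i).inv' hz).mul' (FSm.sum' fun k _ => (c a k).mul' (q k i))).neg
      · simp only [g, dif_neg h]
        exact c a _
    · have := Fintype.card_pos_iff.2 ⟨i⟩
      simp only [Module.finrank_prod, Module.finrank_pi_fintype, Complex.finrank_real_complex,
        Finset.sum_const, Finset.card_univ, smul_eq_mul, Fintype.card_subtype_compl,
        Fintype.card_unique, Nat.cast_lt]
      obtain ⟨n, hn⟩ := Nat.exists_eq_succ_of_ne_zero this.ne'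
      rw [hn]
      simp only [Nat.succ_eq_add_one, Nat.add_sub_cancel]
      nlinarith
  cases isEmpty_or_nonempty ι
  · exact ⟨0, fun x => absurd (hp x) (by simp [Matrix.trace])⟩
  obtain ⟨B, hB⟩ := (dense_compl_of_dimH_lt_finrank
    (s := ⋃ i, g i '' {z | p z.1 i i ≠ 0}) (by
      rw [dimH_iUnion]
      obtain ⟨i, k⟩ := exists_eq_ciSup_of_finite (f := fun i => dimH (g i '' {z | p z.1 i i ≠ 0}))
      exact k ▸ h1 i)).nonempty
  refine ⟨B, fun x h0 => hB ?_⟩
  obtain ⟨i, hi⟩ : ∃ i, p x i i ≠ 0 := by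
    by_contra! k
    exact zero_ne_one ((Finset.sum_eq_zero fun i _ => k i).symm.trans (hp x))
  refine mem_iUnion.2 ⟨i, (x, fun a k => B a k), hi, funext₂ fun a j => ?_⟩
  by_cases h : j = i
  · have k : ∑ k, B a k * p x k i = 0 := congrFun₂ h0 a i
    rw [Fintype.sum_eq_add_sum_subtype_ne _ i] at k
    simp only [g, dif_pos h]
    rw [h, eq_neg_of_add_eq_zero_right k]
    field_simp
  · simp only [g, dif_neg h]

/-- normalisation of a nowhere vanishing homomorphism -/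
theorem exists_nrm {p : M → Matrix ι ι ℂ} {U : Set M} (hp : (⟨p, 0⟩ : Ln E M ι).On I U)
    {b : M → Matrix κ ι ℂ} (sb : ∀ x ∈ U, MSm I b x) (h : ∀ x ∈ U, b x * p x ≠ 0) :
    ∃ (q : M → Matrix κ κ ℂ) (w : M → Matrix κ ι ℂ), Uni I p q w U := by
  let c : M → ℝ := fun x => (((b x * p x)ᴴ * (b x * p x)).trace).re
  have hc : ∀ x ∈ U, 0 < c x ∧ (c x : ℂ) = ((b x * p x)ᴴ * (b x * p x)).trace := fun x hx => by
    have k := (posSemidef_conjTranspose_mul_self (b x * p x)).trace_nonneg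
    have k' := k.lt_of_ne' (mt trace_conjTranspose_mul_self_eq_zero_iff.1 (h x hx))
    exact ⟨(Complex.pos_iff.1 k').1, Complex.ext rfl (by simpa using (Complex.pos_iff.1 k').2)⟩
  let w : M → Matrix κ ι ℂ := fun x => (√(c x))⁻¹ • (b x * p x)
  have sw : ∀ x ∈ U, MSm I w x := fun x hx => by
    have k := (sb x hx).mul (hp.sm x hx)
    exact MSm.rsmul (FSm.inv' ((Real.contDiffAt_sqrt (hc x hx).1.ne').comp_contMDiffAt
      (k.ct.mul k).trace.re) (Real.sqrt_pos.2 (hc x hx).1).ne') k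
  refine ⟨fun x => w x * (w x)ᴴ, w, sw, fun x hx => PIso.of_prj (hp.prj x hx).idem ?_ rfl⟩
  have e : (b x * p x)ᴴ * (b x * p x) = p x * ((b x)ᴴ * b x) * p x := by
    rw [conjTranspose_mul, show (p x)ᴴ = p x from (hp.prj x hx).herm]
    simp only [Matrix.mul_assoc]
  have e' : (b x * p x)ᴴ * (b x * p x) = c x • p x := by
    have k := rank_one (p := p x) (hp.prj x hx) (hp.tr x hx) ((b x)ᴴ * b x)
    have k2 : (p x * ((b x)ᴴ * b x)).trace = c x := by
      rw [(hc x hx).2, e, trace_mul_comm (_ * _), ← Matrix.mul_assoc (p x) (p x),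
        show p x * p x = p x from (hp.prj x hx).idem]
    rw [e, k, k2]
    rfl
  simp only [w, conjTranspose_smul, star_trivial, Matrix.smul_mul, Matrix.mul_smul, e', smul_smul]
  rw [← mul_assoc, ← mul_inv, Real.mul_self_sqrt (hc x hx).1.le, inv_mul_cancel₀ (hc x hx).1.ne',
    one_smul]

/-- **every line lives in a small space** -/
theorem exists_small {p : M → Matrix ι ι ℂ} (hp : (⟨p, 0⟩ : Ln E M ι).On I univ)
    (hd : Module.finrank ℝ E < 2 * Fintype.card κ) :
    ∃ (q : M → Matrix κ κ ℂ) (w : M → Matrix κ ι ℂ), Uni I p q w univ :=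
  let ⟨B, hB⟩ := exists_gen (fun x => hp.sm x trivial) (fun x => hp.tr x trivial) hd
  exists_nrm hp (b := fun _ => B) (fun _ _ => MSm.const _) fun x _ => hB x

end Crest.Agent.X212.Line51
end
end

-- ▼ part X212/Line51/Exl

/-!
# X212 / Line51, part Exl (helper51): the leaves MS2 and EXL of layer M

* `J1` : jointly smooth families of one-forms;  `exists_lit3` : literal isometries through spare indices;
* `hub`, `lay` : the standard connections;  `ms2 : Ms2Stmt`, `exl : ExlStmt`.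
-/

set_option autoImplicit false
set_option linter.unusedSectionVars false

open Set Filter Topology Function Matrix
open scoped ContDiff Manifold
open Crest.Agent.R208 Crest.Agent.R208.F Crest.Agent.R208.FI Crest.Agent.X212.Dr59
  Crest.Agent.X212.Pj41
open Crest.Agent.X212.Num57 (e1)
open Crest.Agent.X212.Prm93 (JAt)
open Crest.Agent.X212.Met55 (VF VAt)
open Crest.Agent.X212.Cyf70 (IC)

noncomputable section

namespace Crest.Agent.X212.Line51

section gen

variable {E : Type} [NormedAddCommGroup E] [NormedSpace ℝ E] [FiniteDimensional ℝ E]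
  {H : Type} [TopologicalSpace H] {I : ModelWithCorners ℝ E H} [I.Boundaryless]
  {M : Type} [TopologicalSpace M] [ChartedSpace H M] [IsManifold I ∞ M]
  {E' : Type} [NormedAddCommGroup E'] [NormedSpace ℝ E'] [FiniteDimensional ℝ E']
  {H' : Type} [TopologicalSpace H'] {J : ModelWithCorners ℝ E' H'} [J.Boundaryless]
  {N : Type} [TopologicalSpace N] [ChartedSpace H' N] [IsManifold J ∞ N]
  {T : Type} [NormedAddCommGroup T] [NormedSpace ℝ T]
  {κ l m : Type} [Fintype κ] [Fintype l] [Fintype m]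

variable (I) in
/-- a jointly smooth family of one-forms -/
def J1 (a : T → M → Ext E) (t : T) (x : M) : Prop :=
  ∀ e : VF I M, VAt I e x → JAt I (fun s y => e1 (a s y) (e y)) t x

variable {a b : T → M → Ext E} {t : T} {x : M}

theorem J1.congr (h : J1 I a t x) (e : ∀ᶠ z in 𝓝 (t, x), b z.1 z.2 = a z.1 z.2) : J1 I b t x :=
  fun v hv => (h v hv).congr (e.mono fun _ k => by rw [k])

theorem J1.add (h : J1 I a t x) (h' : J1 I b t x) : J1 I (fun s y => a s y + b s y) t x :=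
  fun v hv => (ContMDiffAt.add (h v hv) (h' v hv)).congr_of_eventuallyEq
    (Eventually.of_forall fun _ => Num57.e1_add _ _ _)

theorem J1.sub (h : J1 I a t x) (h' : J1 I b t x) : J1 I (fun s y => a s y - b s y) t x :=
  fun v hv => (ContMDiffAt.sub (h v hv) (h' v hv)).congr_of_eventuallyEq
    (Eventually.of_forall fun _ => Num57.e1_sub _ _ _)

theorem J1.smul {f : T → M → ℝ} (hf : JAt I f t x) (h : J1 I a t x) :
    J1 I (fun s y => f s y • a s y) t x :=
  fun v hv => (FSm.mul' hf (h v hv)).congr_of_eventuallyEq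
    (Eventually.of_forall fun _ => Num57.e1_smul _ _ _)

theorem J1.sum {ι : Type} {s : Finset ι} {a : ι → T → M → Ext E} (h : ∀ i ∈ s, J1 I (a i) t x) :
    J1 I (fun r y => ∑ i ∈ s, a i r y) t x :=
  fun v hv => (FSm.sum' fun i hi => h i hi v hv).congr_of_eventuallyEq
    (Eventually.of_forall fun _ => Num57.e1_sum _ _ _)

theorem j1_fixed {α : M → Ext E} (h : SmAt I α x) (hd : ∀ᶠ y in 𝓝 x, IsDeg 1 (α y)) :
    J1 I (fun _ : T => α) t x := fun _ hv => Prm93.JAt.of_fixed (fsm_e1 h hd hv)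

theorem j1_zero (h : ∀ᶠ z in 𝓝 (t, x), a z.1 z.2 = 0) : J1 I a t x :=
  (j1_fixed (α := 0) cAt_zero (Eventually.of_forall fun _ => IsDeg.zero)).congr h

theorem J1.reparam {T' : Type} [NormedAddCommGroup T'] [NormedSpace ℝ T'] {φ : T' → T} {s : T'}
    (hφ : ContDiffAt ℝ ∞ φ s) (h : J1 I a (φ s) x) : J1 I (fun s => a (φ s)) s x :=
  fun v hv => (h v hv).reparam hφ

theorem J1.pm (Φ : PartialDiffeomorph J I N M ∞) {y : N} (hy : y ∈ Φ.source) (h : J1 I a t (Φ y)) :
    J1 J (fun s => pm J I Φ (a s)) t y := fun v hv => by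
  have k := h (Met55.pbv I J Φ.symm v) (Met55.vAt_pbv (Φ.symm.isLocalDiffeomorphAt _ _ _
    (Φ.map_source hy)) (by rwa [show Φ.symm (Φ y) = y from Φ.left_inv hy]))
  refine (ContMDiffAt.comp (f := fun z : T × N => (z.1, Φ z.2)) (t, y) k (contMDiffAt_fst.prodMk
    ((Φ.contMDiffOn.contMDiffAt (Φ.open_source.mem_nhds hy)).comp _
      contMDiffAt_snd))).congr_of_eventuallyEq ?_
  filter_upwards [(Φ.open_source.preimage continuous_snd).mem_nhds hy] with z hz
  have h1 := Met55.pbv_rel (Φ.symm.isLocalDiffeomorphAt _ _ _ (Φ.map_source hz)) v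
  have h2 : Φ.symm (Φ z.2) = z.2 := Φ.left_inv hz
  have d1 : MDifferentiableAt J I Φ (Φ.symm (Φ z.2)) := by
    rw [h2]; exact (Φ.contMDiffOn.contMDiffAt (Φ.open_source.mem_nhds hz)).mdifferentiableAt ne0
  have h3 := mf_comp d1 ((Φ.symm.contMDiffOn.contMDiffAt
    (Φ.open_target.mem_nhds (Φ.map_source hz))).mdifferentiableAt ne0)
  rw [mf_congr (f := Φ ∘ Φ.symm) (g := id) (eventually_of_mem (Φ.open_target.mem_nhds (Φ.map_source hz))
    fun _ k => Φ.right_inv k), mf_id, h2] at h3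
  refine (e1_pb _ _ _).trans (congrArg (e1 (a z.1 (Φ z.2))) ?_)
  refine Eq.trans ?_ (DFunLike.congr_fun h3 _).symm
  exact congrArg (mf J I Φ z.2) ((congrArg (fun w => (v w : E')) h2.symm).trans h1.symm)

theorem em_em_mul [DecidableEq l] {e : κ → l} (he : Injective e) {u : Matrix l m ℂ}
    (h : ∀ i, i ∉ range e → ∀ j, u i j = 0) : em e * ((em e)ᴴ * u) = u := by
  ext i j
  simp only [em, Matrix.mul_apply, conjTranspose_apply, submatrix_apply, id, one_apply,
    apply_ite star, star_one, star_zero, ite_mul, one_mul, zero_mul, Finset.sum_ite_eq',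
    Finset.mem_univ, if_true]
  by_cases k : i ∈ range e
  · obtain ⟨i, rfl⟩ := k
    rw [Finset.sum_eq_single i (fun c _ k => if_neg fun e => k (he e).symm)
      fun k => absurd (Finset.mem_univ _) k, if_pos rfl]
  · rw [h i k j]
    exact Finset.sum_eq_zero fun c _ => if_neg fun k' => k ⟨c, k'.symm⟩

/-- **literal isometries through spare indices** -/
theorem exists_lit3 [SecondCountableTopology M] {p : M → Matrix m m ℂ}
    (hp : (⟨p, 0⟩ : Ln E M m).On I univ) (hk : Module.finrank ℝ E < 2 * Fintype.card κ) (e : κ ↪ l)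
    {A : Type} {O : A → Set M} (hO : ∀ a, IsOpen (O a)) (hd : Pairwise (Disjoint on O))
    {q : A → M → Matrix l l ℂ} {u : A → M → Matrix l m ℂ} (h : ∀ a, Uni I p (q a) (u a) (O a))
    (he : ∀ a, ∀ x ∈ O a, ∀ j k, q a x (e j) k = 0) {ρ : M → ℝ} (hρ : ∀ x, FSm I ρ x)
    (hs : tsupport ρ ⊆ ⋃ a, O a) :
    ∃ q' w, Uni I p q' w univ ∧ ∀ a, ∀ x ∈ O a, ρ x = 1 → w x = u a x := by
  classical
  obtain ⟨q₀, w₀, h₀⟩ := exists_small hp hk
  let V : Matrix l {i // i ∉ range e} ℂ := em Subtype.val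
  have k : ∀ a, ∀ x ∈ O a, V * (Vᴴ * u a x) = u a x := fun a x hx =>
    em_em_mul Subtype.val_injective fun i hi j => by
      obtain ⟨c, rfl⟩ : i ∈ range e := by_contra fun k => hi ⟨⟨i, k⟩, rfl⟩
      rw [← ((h a).iso x hx).left, Matrix.mul_apply]
      exact Finset.sum_eq_zero fun _ _ => by rw [he a x hx, zero_mul]
  have h1 : ∀ a, Uni I p (fun x => Vᴴ * q a x * V) (fun x => Vᴴ * u a x) (O a) := fun a =>
    ⟨fun x hx => (MSm.const _).mul ((h a).sm x hx), fun x hx =>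
      PIso.of_prj (hp.prj x trivial).idem (by
        rw [conjTranspose_mul, conjTranspose_conjTranspose, Matrix.mul_assoc, k a x hx,
          ((h a).iso x hx).src]) (by
        rw [conjTranspose_mul, conjTranspose_conjTranspose, ← ((h a).iso x hx).tgt]
        simp only [Matrix.mul_assoc])⟩
  have o : (⟨q₀, _⟩ : Ln E M κ).On I univ :=
    Iso.on (L := ⟨p, 0⟩) (L' := ⟨q₀, 0 - th I w₀⟩) isOpen_univ ⟨h₀, fun x _ => add_sub_cancel (th I w₀ x) 0⟩ hp
  obtain ⟨L', w, -, k2, k3, -⟩ := exists_lit_fam o hO hd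
    (fun a => (h₀.symm.mono (subset_univ _)).trans (h1 a)) hρ hs (V₁ := em e) (V₂ := V)
    (em_iso e.injective) (em_iso Subtype.val_injective) (em_orth fun i j k => j.2 ⟨i, k⟩)
  refine ⟨_, _, h₀.trans k2.toUni, fun a x hx h2 => ?_⟩
  show w x * w₀ x = _
  rw [(k3 a x hx h2).1, ← Matrix.mul_assoc V, k a x hx, Matrix.mul_assoc, (h₀.iso x trivial).src,
    ((h a).iso x hx).idem]

end gen

open Crest.Agent.X212.M

theorem ms2 : Ms2Stmt := fun Z _ _ _ hp => exists_small hp (by simp [Z.dim])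

section band

variable {X : Mf 4} (B : Band X)

/-- the inverse of a band -/
def ji : X.M → B.Y.M × ℝ := B.oe.pd.symm

theorem ji_j (q : B.Y.M × ℝ) : ji B (B.j q) = q := B.oe.pd_symm_apply q

theorem mp_j (S : Set ℝ) : Mp (IC B.Y.I) X.I (univ ×ˢ S) (B.slab S) B.j :=
  ⟨fun q _ => B.oe.contMDiff q, mapsTo_image _ _⟩

theorem cm_ji (q : B.Y.M × ℝ) : ContMDiffAt X.I (IC B.Y.I) ∞ (ji B) (B.j q) :=
  B.oe.pd.symm.contMDiffOn.contMDiffAt (B.oe.isOpen_range.mem_nhds ⟨q, rfl⟩)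

theorem mp_ji (S : Set ℝ) : Mp X.I (IC B.Y.I) (B.slab S) (univ ×ˢ S) (ji B) :=
  ⟨by rintro _ ⟨q, -, rfl⟩; exact cm_ji B q, by rintro _ ⟨q, h, rfl⟩; rwa [ji_j]⟩

theorem pm_j_ji (α : B.Y.M × ℝ → Ext (B.Y.E × ℝ)) (q : B.Y.M × ℝ) :
    pm (IC B.Y.I) X.I B.j (pm X.I (IC B.Y.I) (ji B) α) q = α q := by
  rw [pm_comp ((cm_ji B q).mdifferentiableAt ne0) ((B.oe.contMDiff q).mdifferentiableAt ne0)]
  exact pm_of_eventually_id (Eventually.of_forall (ji_j B)) _

/-- the cut-off of a band -/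
def cb (x : X.M) : ℝ := M.chi (B.s x)

theorem cb_j (q : B.Y.M × ℝ) : cb B (B.j q) = M.chi q.2 := by
  rw [cb, B.s_j]
  rcases le_or_gt |q.2| 3 with h | h
  · rw [clp_eq h]
  · rw [chi_eq_zero (s := q.2) (by linarith), chi_eq_zero]
    rcases lt_abs.1 h with h | h
    · exact le_abs.2 (.inl (by linarith [clp_ge h.le]))
    · exact le_abs.2 (.inr (by linarith [clp_le (s := q.2) (by linarith)]))

theorem cb_off {x : X.M} (h : x ∉ B.slab (Icc (-2) 2)) : cb B x = 0 := by
  by_cases hx : x ∈ range B.j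
  · obtain ⟨q, rfl⟩ := hx
    rw [cb_j]
    exact chi_eq_zero (not_lt.1 fun k => h (B.j_mem_slab.2 (abs_le.1 k.le)))
  · exact chi_eq_zero (by linarith [B.three_le_abs_s fun k => hx (B.slab_subset _ k)])

theorem cb_ev {x : X.M} (h : x ∉ B.slab (Icc (-2) 2)) : ∀ᶠ y in 𝓝 x, cb B y = 0 :=
  eventually_of_mem ((B.isCompact_slab isCompact_Icc).isClosed.isOpen_compl.mem_nhds h)
    fun _ => cb_off B

theorem fsm_cb (x : X.M) : FSm X.I (cb B) x :=
  contDiff_chi.contDiffAt.comp_contMDiffAt (B.contMDiff_s x)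

theorem slab23 : B.slab (Icc (-2) 2) ⊆ B.slab (Ioo (-3) 3) :=
  B.slab_mono (Icc_subset_Ioo (by norm_num) (by norm_num))

end band

variable {X : Mf 4} {A κ lam : Type} [Fintype A] [Fintype κ] [Fintype lam] {K : Mark X A κ}
  (N : ML K lam) (b : LBas X univ)

/-- the model connection form of a band -/
def nX (a : A) : X.M → Ext X.E := pm X.I (IC (K.bn a).Y.I) (ji (K.bn a)) (N.nA a)

theorem uni_m (a : A) : Uni X.I N.p (fun x => (N.LY a).p (ji (K.bn a) x).1)
    (fun x => N.m a (ji (K.bn a) x)) ((K.bn a).slab (Ioo (-3) 3)) := by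
  have k := ((N.um a).mono (V := univ ×ˢ Ioo (-3) 3) fun q h => (abs_lt.2 h.2).le).comp
    (mp_ji (K.bn a) _)
  refine ⟨k.sm, ?_⟩
  rintro _ ⟨q, h, rfl⟩
  simpa only [ji_j] using k.iso _ ⟨q, h, rfl⟩

theorem sm_nX (a : A) : Sm X.I ((K.bn a).slab (Ioo (-3) 3)) (nX N a) :=
  Sm.pm (a := N.nA a) (((N.um a).mono fun _ h => (abs_lt.2 h.2).le).sm_th.add
    ((N.okY a).sa.pm ⟨fun _ _ => contMDiffAt_fst, mapsTo_univ _ _⟩)) (mp_ji _ _)

theorem dg_nX (a : A) : Dg 1 univ (nX N a) :=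
  Dg.pm (a := N.nA a) ((dg_th _).add ((N.okY a).dg.pm (mapsTo_univ _ univ))) (mapsTo_univ _ _)

/-- the standard connection form -/
def hub (p : Prm A) (x : X.M) : Ext X.E :=
  b.b p.1 x + ∑ a, (tau (p.2 a) * cb (K.bn a) x) • (nX N a x - b.b p.1 x)

theorem hub_congr {u : ℝ} {t t' : A → ℝ} {x : X.M}
    (h : ∀ a, x ∈ (K.bn a).slab (Icc (-2) 2) → t a = t' a) : hub N b (u, t) x = hub N b (u, t') x := by
  refine congrArg _ (Finset.sum_congr rfl fun a _ => ?_)
  by_cases k : x ∈ (K.bn a).slab (Icc (-2) 2)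
  · rw [show (u, t).2 a = (u, t').2 a from h a k]
  · rw [cb_off _ k, mul_zero, mul_zero]

theorem hub_one {p : Prm A} {a : A} {x : X.M}
    (h : ∀ a', a' ≠ a → p.2 a' = 0 ∨ x ∉ range (K.bn a').j) :
    hub N b p x = b.b p.1 x + (tau (p.2 a) * cb (K.bn a) x) • (nX N a x - b.b p.1 x) := by
  rw [hub, Finset.sum_eq_single a (fun a' _ k => ?_) fun k => absurd (Finset.mem_univ a) k]
  rcases h a' k with e | e
  · rw [e, tau_zero, zero_mul, zero_smul]
  · rw [cb_off _ fun k => e ((K.bn a').slab_subset _ k), mul_zero, zero_smul]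

theorem hub_on (p : Prm A) : Ln.On X.I ⟨N.p, hub N b p⟩ univ := by
  have := K.cpt
  refine ⟨N.ok.sm, N.ok.prj, N.ok.tr, fun x _ => ?_, fun x _ => (b.dg _ x trivial).add ?_⟩
  · have k : SmAt X.I (∑ a, tau (p.2 a) • cb (K.bn a) • (nX N a - b.b p.1)) x :=
      sm_sum (U := {x}) (fun a _ y _ => (smAt_cutoff (fsm_cb _ y)
        ((closure_minimal (support_subset_iff'.2 fun _ => cb_off _)
          ((K.bn a).isCompact_slab isCompact_Icc).isClosed).trans (slab23 _))
        fun k => (sm_nX N a y k).sub (b.sm _ y trivial)).smul _) x rfl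
    refine ((b.sm p.1 x trivial).add k).congr (Eventually.of_forall fun y => ?_)
    simp [hub, mul_smul]
  · have := dg_sum (s := Finset.univ) (fun a _ => ((dg_nX N a).sub (b.dg p.1)).fsmul
      fun y => tau (p.2 a) * cb (K.bn a) y) x trivial
    rwa [Finset.sum_apply] at this

theorem j1_hub (p : Prm A) (x : X.M) : J1 X.I (hub N b) p x := by
  have hb : J1 X.I (fun p : Prm A => b.b p.1) p x :=
    J1.reparam (a := b.b) contDiffAt_fst (b.js _ x trivial)
  refine hb.add (J1.sum fun a _ => ?_)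
  by_cases k : x ∈ (K.bn a).slab (Icc (-2) 2)
  · exact J1.smul (FSm.mul' (Prm93.JAt.of_par (c := fun p : Prm A => tau (p.2 a))
      (contDiff_tau.contDiffAt.comp _ (by fun_prop))) (Prm93.JAt.of_fixed (fsm_cb _ x)))
      ((j1_fixed (sm_nX N a x (slab23 _ k)) (Eventually.of_forall fun y => dg_nX N a y trivial)).sub hb)
  · exact j1_zero ((continuousAt_snd.eventually (cb_ev _ k)).mono fun z e => by
      rw [e, mul_zero, zero_smul])

theorem par_off {t : A → ℝ} (ht : t ∈ K.sys.Par) {a : A} (h : t a ≠ 0) (q : (K.bn a).Y.M × ℝ) (a' : A)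
    (k : a' ≠ a) : t a' = 0 ∨ (K.bn a).j q ∉ range (K.bn a').j :=
  or_iff_not_imp_left.2 fun e k' => disjoint_left.1 (ht.2 e h k) k' ⟨q, rfl⟩

theorem hub_band (u : ℝ) {t : A → ℝ} (ht : t ∈ K.sys.Par) {a : A} (h : t a ≠ 0)
    (q : (K.bn a).Y.M × ℝ) : pm (IC (K.bn a).Y.I) X.I (K.bn a).j (hub N b (u, t)) q =
      (1 - tau (t a) * M.chi q.2) • pm (IC (K.bn a).Y.I) X.I (K.bn a).j (b.b u) q +
        (tau (t a) * M.chi q.2) • N.nA a q := by
  rw [← pm_j_ji (K.bn a) (N.nA a) q, pm_apply, hub_one N b (par_off ht h q), cb_j, map_add, map_smul,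
    map_sub, sub_smul, one_smul, smul_sub]
  exact (add_sub_assoc _ _ _).symm.trans (add_sub_right_comm _ _ _)

open Classical in
/-- the parameter seen from the cell `c` -/
def tc (K : Mark X A κ) (c : Set A) (p : Prm A) : Prm A :=
  (p.1, fun a => if a ∈ c then 1 else if a ∈ K.sys.fr c then p.2 a else 0)

theorem contDiff_tc (c : Set A) : ContDiff ℝ ∞ (tc K c) := by
  refine contDiff_fst.prodMk (contDiff_pi.2 fun a => ?_)
  split_ifs <;> fun_prop

theorem tc_br {c : Set A} {p : Prm A} (h : p ∈ K.Br c) : tc K c p = p := by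
  refine Prod.ext rfl (funext fun a => ?_)
  simp only [tc]
  split_ifs with h1 h2
  · exact (h.2 h1).symm
  · rfl
  · by_contra k
    exact h2 ⟨h1, fun a' h' => h.1.2 (Ne.symm k) (Sys.inf_subset _ (h.2 h')) fun e => h1 (e ▸ h')⟩

theorem tc_off {c : K.Cl} {a : A} (h : a ∈ c.1) (p : Prm A) (q : (K.bn a).Y.M × ℝ) (a' : A)
    (k : a' ≠ a) : (tc K c.1 p).2 a' = 0 ∨ (K.bn a).j q ∉ range (K.bn a').j := by
  simp only [tc]
  split_ifs with h1 h2
  · exact Or.inr fun e => disjoint_left.1 (c.2 h1 h k) e ⟨q, rfl⟩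
  · exact Or.inr fun e => disjoint_left.1 (h2.2 a h) e ⟨q, rfl⟩
  · exact Or.inl rfl

theorem exists_v (hN : N.Spare) (σ : K.Cl) : ∃ q v, Uni X.I N.p q v univ ∧
    ∀ a ∈ σ.1, ∀ z : (K.bn a).Y.M × ℝ, |z.2| ≤ 1 → v ((K.bn a).j z) = N.m a z := by
  classical
  obtain ⟨e, he⟩ := hN
  obtain ⟨q, v, h1, h2⟩ := exists_lit3 N.ok (by simp [X.dim]) e
    (O := fun a : σ.1 => (K.bn a).slab (Ioo (-3) 3)) (fun a => (K.bn a).isOpen_slab isOpen_Ioo)
    (fun a a' k => (σ.2 a.2 a'.2 (Subtype.coe_ne_coe.2 k)).mono ((K.bn a).slab_subset _)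
      ((K.bn a').slab_subset _)) (fun a => uni_m N a) (fun a x _ j k => he a j _ k)
    (ρ := fun x => ∑ a : σ.1, cb (K.bn a) x) (fun x => FSm.sum' fun a _ => fsm_cb _ x)
    ((closure_minimal (t := ⋃ a : σ.1, (K.bn a).slab (Icc (-2) 2)) (support_subset_iff'.2 fun x k =>
      Finset.sum_eq_zero fun a _ => cb_off _ fun k' => k (mem_iUnion.2 ⟨a, k'⟩))
      (isClosed_iUnion_of_finite fun a => ((K.bn a).isCompact_slab isCompact_Icc).isClosed)).trans
      (iUnion_mono fun a => slab23 _))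
  refine ⟨q, v, h1, fun a ha z hz => (h2 ⟨a, ha⟩ _ ((K.bn a).j_mem_slab.2 (abs_lt.1 (by linarith)))
    ?_).trans (by rw [ji_j])⟩
  rw [Finset.sum_eq_single (⟨a, ha⟩ : σ.1) (fun a' _ k => cb_off _ fun k' => ?_)
    fun k => absurd (Finset.mem_univ _) k, cb_j, chi_eq_one hz]
  exact disjoint_left.1 (σ.2 a'.2 ha fun e => k (Subtype.ext e)) ((K.bn a').slab_subset _ k') ⟨z, rfl⟩

/-- the walls on which the layer `(m, c)` is literal -/
def lc (m c : K.Cl) : K.Cl := ⟨c.1 ∪ m.1 ∩ K.sys.fr c.1, by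
  rintro a (h | h) a' (h' | h') k
  exacts [c.2 h h' k, (h'.2.2 a h).symm, h.2.2 a' h', m.2 h.1 h'.1 k]⟩

section caps

variable (C : Caps K) {c : K.Cl} {a : A}

theorem j_mem_src (h : a ∈ c.1) {z : (K.bn a).Y.M × ℝ} (hz : z.2 ≠ 0) :
    (K.bn a).j z ∈ (C.φ c).source := by
  rw [C.src]
  intro k
  obtain ⟨a', h', k⟩ := mem_iUnion₂.1 k
  by_cases e : a' = a
  · subst e
    exact hz ((K.bn a').j_mem_core.1 k)
  · exact disjoint_left.1 (c.2 h' h e) ((K.sys.w a').core_subset k) ⟨z, rfl⟩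

theorem ev_cap (h : a ∈ c.1) (hp : K.pin a) (s : Bool) : ∀ᶠ z in 𝓝 (C.β c a s 0),
    z = C.β c a s 0 ∨ ∃ q : (K.bn a).Y.M × ℝ, q.2 ≠ 0 ∧ |q.2| < 1 ∧ C.φ c ((K.bn a).j q) = z := by
  refine eventually_of_mem (((C.βoe c a h hp s).isOpen_image (Metric.isOpen_ball (ε := 1))).mem_nhds
    ⟨0, Metric.mem_ball_self one_pos, rfl⟩) ?_
  rintro _ ⟨v, hv, rfl⟩
  by_cases e : v = 0
  · exact Or.inl (by rw [e])
  · have hr := norm_pos_iff.2 e
    obtain ⟨y, hy⟩ := (K.rnd a hp).surj (‖v‖⁻¹ • v) (by rw [norm_smul]; simp [hr.ne'])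
    have k : |M.pm s * ‖v‖| = ‖v‖ := by rw [abs_mul, abs_pm, one_mul, abs_norm]
    refine Or.inr ⟨(y, M.pm s * ‖v‖), abs_pos.1 (hr.trans_eq k.symm),
      k.trans_lt (mem_ball_zero_iff.1 hv), ?_⟩
    rw [← C.βφ c a h hp s y _ hr, hy, smul_inv_smul₀ hr.ne']

theorem exists_cap {z : (C.Z c).M} (h : z ∉ (C.φ c).target) :
    ∃ x : A × Bool, x.1 ∈ c.1 ∧ K.pin x.1 ∧ z = C.β c x.1 x.2 0 := by
  rw [C.tgt] at h
  simp only [mem_ofPred_eq, not_forall, not_not] at h
  obtain ⟨a, h1, h2, s, h3⟩ := h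
  exact ⟨(a, s), h1, h2, h3⟩

open Classical in
/-- the projector on a capped manifold -/
def pZ (c : K.Cl) (q : X.M → Matrix lam lam ℂ) (z : (C.Z c).M) : Matrix lam lam ℂ :=
  if h : z ∈ (C.φ c).target then q ((C.φ c).symm z) else
    (N.LY (exists_cap C h).choose.1).p (Classical.arbitrary _)

open Classical in
/-- a form on a capped manifold -/
def aZ (c : K.Cl) (γ : X.M → Ext X.E) (z : (C.Z c).M) : Ext (C.Z c).E :=
  if z ∈ (C.φ c).target then pm (C.Z c).I X.I (C.φ c).symm γ z else 0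

theorem pZ_φ {q : X.M → Matrix lam lam ℂ} {x : X.M} (h : x ∈ (C.φ c).source) :
    pZ N C c q (C.φ c x) = q x := by
  rw [pZ, dif_pos ((C.φ c).map_source h)]
  exact congrArg q ((C.φ c).left_inv h)

theorem aZ_zero {γ : X.M → Ext X.E} {x : X.M} (h : x ∈ (C.φ c).source) (e : γ x = 0) :
    aZ C c γ (C.φ c x) = 0 := by
  rw [aZ, if_pos ((C.φ c).map_source h), pm_apply, show (C.φ c).symm (C.φ c x) = x from
    (C.φ c).left_inv h, e, map_zero]

theorem pm_aZ {γ : X.M → Ext X.E} {x : X.M} (h : x ∈ (C.φ c).source) :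
    pm X.I (C.Z c).I (C.φ c) (aZ C c γ) x = γ x := by
  have h' := (C.φ c).map_source h
  rw [pm_congr_right (b := pm (C.Z c).I X.I (C.φ c).symm γ) (if_pos h'), pm_comp
    (((C.φ c).symm.contMDiffOn.contMDiffAt ((C.φ c).open_target.mem_nhds h')).mdifferentiableAt ne0)
    (((C.φ c).contMDiffOn.contMDiffAt ((C.φ c).open_source.mem_nhds h)).mdifferentiableAt ne0)]
  exact pm_of_eventually_id (eventually_of_mem ((C.φ c).open_source.mem_nhds h)
    fun _ k => (C.φ c).left_inv k) _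

variable {q v : X.M → Matrix lam lam ℂ} (hv : Uni X.I N.p q v univ)
  (hl : ∀ a ∈ c.1, ∀ z : (K.bn a).Y.M × ℝ, |z.2| ≤ 1 → v ((K.bn a).j z) = N.m a z)
include hv hl

theorem cap_p {z : (C.Z c).M} (h : z ∉ (C.φ c).target) : ∀ᶠ y in 𝓝 z, pZ N C c q y = pZ N C c q z := by
  obtain ⟨h1, h2, h3⟩ := (exists_cap C h).choose_spec
  obtain ⟨p₀, e⟩ := N.cst _ h2
  have k := ev_cap C h1 h2 (exists_cap C h).choose.2
  rw [← h3] at k
  refine k.mono ?_
  rintro _ (rfl | ⟨w, w1, w2, rfl⟩)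
  · rfl
  · rw [pZ_φ N C (j_mem_src C h1 w1), pZ, dif_neg h, ← (hv.iso _ trivial).tgt, hl _ h1 w w2.le,
      ((N.um _).iso w (w2.le.trans (by norm_num))).tgt, e]

theorem cap_a {z : (C.Z c).M} (h : z ∉ (C.φ c).target) :
    ∀ᶠ y in 𝓝 z, ∀ p, aZ C c (hub N b (tc K c.1 p) - th X.I v) y = 0 := by
  obtain ⟨⟨a, s⟩, h1, h2, rfl⟩ := exists_cap C h
  obtain ⟨p₀, e⟩ := N.cst _ h2
  refine (ev_cap C h1 h2 s).mono ?_
  rintro _ (rfl | ⟨w, w1, w2, rfl⟩) p
  · exact if_neg h
  · refine aZ_zero C (j_mem_src C h1 w1) ?_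
    have k : v =ᶠ[𝓝 ((K.bn a).j w)] fun x => N.m a (ji (K.bn a) x) := by
      refine eventually_of_mem (((K.bn a).isOpen_slab (isOpen_Ioo (a := -1) (b := 1))).mem_nhds
        ((K.bn a).j_mem_slab.2 (abs_lt.1 w2))) ?_
      rintro _ ⟨w', k, rfl⟩
      exact (hl a h1 w' (abs_lt.2 k.2).le).trans (by simp only [ji_j])
    rw [Pi.sub_apply, hub_one N b (tc_off h1 p w), cb_j, chi_eq_one w2.le, th_congr k,
      ← pm_th (by rw [ji_j]; exact (N.um a).sm w (w2.le.trans (by norm_num)))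
        ((cm_ji _ w).mdifferentiableAt ne0)]
    simp only [tc, if_pos h1, tau_one, one_mul, one_smul, add_sub_cancel, sub_eq_zero]
    exact pm_congr_right (by simp only [ML.nA, e, pm_zero, Pi.zero_apply, add_zero])

omit hl in
theorem iso_v {γ : X.M → Ext X.E} : Iso X.I ⟨N.p, γ⟩ ⟨q, γ - th X.I v⟩ v univ :=
  ⟨hv, fun _ _ => add_sub_cancel _ _⟩

theorem on_Z (p : Prm A) :
    Ln.On (C.Z c).I ⟨pZ N C c q, aZ C c (hub N b (tc K c.1 p) - th X.I v)⟩ univ := by
  refine Ln.on_of_loc fun z _ => ?_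
  by_cases h : z ∈ (C.φ c).target
  · exact ⟨_, h, (((iso_v N hv).on isOpen_univ (hub_on N b _)).pull (f := (C.φ c).symm)
      ⟨fun y k => (C.φ c).symm.contMDiffOn.contMDiffAt ((C.φ c).open_target.mem_nhds k),
        mapsTo_univ _ _⟩).congr (C.φ c).open_target (fun _ k => dif_pos k) fun _ k => if_pos k⟩
  · have k := (cap_a N b C hv hl h).mono fun y k => k p
    refine ⟨{z}, rfl, ?_, ?_, ?_, ?_, ?_⟩ <;> rintro _ rfl
    · exact (MSm.const _).congr (cap_p N C hv hl h)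
    · exact (congrArg Prj (dif_neg h)).mpr ((N.okY _).prj _ trivial)
    · exact (congrArg trace (dif_neg h)).trans ((N.okY _).tr _ trivial)
    · exact cAt_zero.congr k
    · exact (congrArg (IsDeg 1) k.self_of_nhds).mpr IsDeg.zero

theorem j1_Z (p : Prm A) (z : (C.Z c).M) :
    J1 (C.Z c).I (fun p => aZ C c (hub N b (tc K c.1 p) - th X.I v)) p z := by
  by_cases h : z ∈ (C.φ c).target
  · refine (J1.pm (C.φ c).symm h ((J1.reparam (contDiff_tc (K := K) c.1).contDiffAt (j1_hub N b _ _)).sub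
      (j1_fixed (hv.sm_th _ trivial) (Eventually.of_forall fun _ => isDeg_io _)))).congr ?_
    filter_upwards [((C.φ c).open_target.preimage continuous_snd).mem_nhds h] with y k using if_pos k
  · exact j1_zero ((continuousAt_snd.eventually (cap_a N b C hv hl h)).mono fun y k => k y.1)

end caps

/-- **EXL** -/
theorem exl : ExlStmt := by
  intro X A κ lam _ _ _ K W N b hN
  choose q v h1 h2 using exists_v N hN
  have hl : ∀ m c : K.Cl, ∀ a ∈ c.1, ∀ z : (K.bn a).Y.M × ℝ, |z.2| ≤ 1 →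
      v (lc m c) ((K.bn a).j z) = N.m a z := fun m c a h => h2 _ a (Or.inl h)
  refine ⟨{
    a0 := hub N b
    Λ := fun m c => ⟨pZ N W.toCaps c (q (lc m c)),
      fun p => aZ W.toCaps c (hub N b (tc K c.1 p) - th X.I (v (lc m c))),
      on_Z N b _ (h1 _) (hl m c), fun k p z => j1_Z N b _ (h1 _) (hl m c) p z _ ((W.L m c).F0.sm k z)⟩
    v := fun m c => v (lc m c)
    ok0 := hub_on N b
    loc := fun m c u t t' z h => ?_
    iso := fun m c p hp => ?_
    neck := fun a p hp h => ⟨(N.um a).mono fun z k => le_trans (show |z.2| ≤ 1 from k) (by norm_num),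
      fun z k => ?_⟩
    lit := fun m c a z k => h2 (lc m c) a (k.2.imp And.left id) z k.1 },
    fun u t _ x h => ?_, fun u t ht a h z => hub_band N b u ht h z⟩
  · simp only [aZ]
    split_ifs with k
    · refine pm_congr_right (congrArg (· - _) (hub_congr N b fun a ha => ?_))
      split_ifs with k1 k2
      exacts [rfl, h a k2 ⟨_, ha, (W.φ c).right_inv k⟩, rfl]
    · rfl
  · refine ((iso_v N (h1 _)).mono (subset_univ _)).of_eq (fun _ _ => rfl) (fun _ _ => rfl)
      (fun x k => pZ_φ N _ k) fun x k => (pm_aZ W.toCaps k).trans ?_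
    rw [tc_br hp]
  · refine Eq.symm ((hub_band N b p.1 hp (by linarith) z).trans ?_)
    rw [tau_eq_one h, chi_eq_one k]
    simp only [mul_one, sub_self, zero_smul, one_smul, zero_add]
    rfl
  · refine (congrArg _ (Finset.sum_eq_zero fun a _ => ?_)).trans (add_zero _)
    by_cases k : t a = 0
    · rw [show (u, t).2 a = 0 from k, tau_zero, zero_mul, zero_smul]
    · rw [cb_off _ fun k' => h a k ((K.bn a).slab_subset _ k'), mul_zero, zero_smul]

end Crest.Agent.X212.Line51
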